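import Mathlib
import Vale.Agent.Lib.P137.helper41.Defs

/-!
# P137 pool job 376 (P137-BR1), backup copy by helper39

The centered maximal function of an `L`-Lipschitz function moves by at most `L * dist x y`.
-/

namespace Vale.Agent.Lib.P137.H39

open Vale.Agent.Lib.P137 MeasureTheory Metric Set Filter
open scoped ENNReal NNReal Topology

/-- Translation of a ball integral: the integral over `ball x r` is the integral over
`ball y r` of the translated function. -/
theorem setLIntegral_ball_translate {d : ℕ} (f : E d → ℝ≥0∞) (x y : E d) (r : ℝ) :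
    ∫⁻ z in ball x r, f z = ∫⁻ z in ball y r, f (z + (x - y)) := by
  have h1 := (measurePreserving_add_right (volume : Measure (E d)) (x - y)).setLIntegral_comp_preimage_emb
    (MeasurableEquiv.addRight (x - y)).measurableEmbedding f (ball x r)
  have h2 : (fun z : E d => z + (x - y)) ⁻¹' ball x r = ball y r := by
    rw [preimage_add_right_ball, sub_sub_cancel]
  rw [h2] at h1
  exact h1.symm

/-- Pointwise bound for a translated Lipschitz function. -/
theorem ofReal_translate_le {d : ℕ} (g : E d → ℝ) {L : ℝ≥0} (hL : LipschitzWith L g)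
    (x y z : E d) :
    ENNReal.ofReal (g (z + (x - y))) ≤
      ENNReal.ofReal (g z) + ENNReal.ofReal (L * dist x y) := by
  have h1 : dist (g (z + (x - y))) (g z) ≤ L * dist (z + (x - y)) z := hL.dist_le_mul _ _
  have h2 : dist (z + (x - y)) z = dist x y := by
    rw [dist_eq_norm, dist_eq_norm, add_sub_cancel_left]
  rw [h2, Real.dist_eq] at h1
  have h3 : g (z + (x - y)) ≤ g z + L * dist x y := by
    have := le_abs_self (g (z + (x - y)) - g z)
    linarith
  exact (ENNReal.ofReal_le_ofReal h3).trans ENNReal.ofReal_add_le

/-- The centered maximal function of an `L`-Lipschitz function moves by at most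
`L * dist x y`. -/
theorem cmax_lipschitz {d : ℕ} (g : E d → ℝ) {L : ℝ≥0} (hL : LipschitzWith L g) (x y : E d) :
    cmax (fun z => ENNReal.ofReal (g z)) x ≤
      cmax (fun z => ENNReal.ofReal (g z)) y + ENNReal.ofReal (L * dist x y) := by
  unfold cmax
  refine iSup₂_le fun r hr => ?_
  have hV : volume (ball x r) = volume (ball y r) := by
    rw [Measure.addHaar_ball_center, ← Measure.addHaar_ball_center volume y r]
  have hV0 : volume (ball y r) ≠ 0 := (measure_ball_pos volume y hr).ne'
  have hVt : volume (ball y r) ≠ ⊤ := measure_ball_lt_top.ne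
  have hint : ∫⁻ z in ball x r, ENNReal.ofReal (g z) ≤
      (∫⁻ z in ball y r, ENNReal.ofReal (g z)) +
        ENNReal.ofReal (L * dist x y) * volume (ball y r) := by
    rw [setLIntegral_ball_translate (fun z => ENNReal.ofReal (g z)) x y r]
    calc ∫⁻ z in ball y r, ENNReal.ofReal (g (z + (x - y)))
        ≤ ∫⁻ z in ball y r, (ENNReal.ofReal (g z) + ENNReal.ofReal (L * dist x y)) :=
          lintegral_mono fun z => ofReal_translate_le g hL x y z
      _ = (∫⁻ z in ball y r, ENNReal.ofReal (g z)) +
            ENNReal.ofReal (L * dist x y) * volume (ball y r) := by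
          rw [lintegral_add_right _ measurable_const, setLIntegral_const]
  calc (∫⁻ z in ball x r, ENNReal.ofReal (g z)) / volume (ball x r)
      ≤ ((∫⁻ z in ball y r, ENNReal.ofReal (g z)) +
          ENNReal.ofReal (L * dist x y) * volume (ball y r)) / volume (ball y r) := by
        rw [hV]
        exact ENNReal.div_le_div_right hint _
    _ = (∫⁻ z in ball y r, ENNReal.ofReal (g z)) / volume (ball y r) +
          ENNReal.ofReal (L * dist x y) := by
        rw [ENNReal.add_div, ENNReal.mul_div_cancel_right hV0 hVt]
    _ ≤ (⨆ r : ℝ, ⨆ _ : 0 < r, (∫⁻ z in ball y r, ENNReal.ofReal (g z)) / volume (ball y r)) +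
          ENNReal.ofReal (L * dist x y) := by
        gcongr
        exact le_iSup₂ (f := fun (r : ℝ) (_ : 0 < r) =>
          (∫⁻ z in ball y r, ENNReal.ofReal (g z)) / volume (ball y r)) r hr

end Vale.Agent.Lib.P137.H39
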